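import Mathlib.GroupTheory.SpecificGroups.Alternating
import Vale.Agent.P240.MathlibUsed
import Vale.Agent.P240.K.FamDefs

/-!
Definitions: BN-pairs in terms of representatives, split BN-pairs of characteristic `r`, simple
groups of Lie type, and the list of admissible components.
-/

namespace Vale.Agent.P240.H195

open Subgroup Vale.Agent.P240.K

section
variable {L : Type*} [Group L]

/-- `x` lies in the double coset `B n B`. -/
def DC (B : Subgroup L) (n x : L) : Prop := ∃ a ∈ B, ∃ b ∈ B, x = a * n * b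

/-- `(B, N)` is a BN-pair of the subgroup generated by `B` and `N`: the group `T = B ∩ N` is normal
in `N`, and `S` is a set of elements of `N` that represent involutions generating the Weyl group
`N / T`; moreover `s B n ⊆ B n B ∪ B s n B` and `s⁻¹ B s ⊄ B` for all `s ∈ S` and `n ∈ N`. -/
structure BN0 (B N : Subgroup L) (S : Set L) : Prop where
  norm : ∀ n ∈ N, ∀ t ∈ B, t ∈ N → n * t * n⁻¹ ∈ B
  sub : ∀ s ∈ S, s ∈ N
  span : N = closure S ⊔ (B ⊓ N)
  sq : ∀ s ∈ S, s * s ∈ B
  mul : ∀ s ∈ S, ∀ b ∈ B, ∀ n ∈ N, DC B n (s * b * n) ∨ DC B (s * n) (s * b * n)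
  thick : ∀ s ∈ S, ∃ b ∈ B, s⁻¹ * b * s ∉ B

/-- `(B, N)` is a BN-pair (Tits system) of `L`: as in `BN0`, and `L` is generated by `B` and `N`. -/
structure BN (B N : Subgroup L) (S : Set L) : Prop extends BN0 B N S where
  gen : B ⊔ N = ⊤

/-- A split BN-pair of characteristic `r`: `B = U T` with `U` a normal `r`-subgroup of `B` and
`T = B ∩ N` of order prime to `r`; `U ∩ U^s` is normal in `U` for all `s ∈ S` (the BN-pair is
strongly split), and `U ∩ U^n = 1` for some `n ∈ N`. The set `S` is not empty. -/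
structure SB (r : ℕ) (B N U : Subgroup L) (S : Set L) : Prop extends BN B N S where
  le : U ≤ B
  pgroup : IsPGroup r U
  normal : ∀ b ∈ B, ∀ u ∈ U, b * u * b⁻¹ ∈ U
  split : ∀ b ∈ B, ∃ u ∈ U, ∃ t ∈ B, t ∈ N ∧ b = u * t
  coprime : ¬ r ∣ Nat.card (B ⊓ N : Subgroup L)
  strong : ∀ s ∈ S, ∀ x ∈ U, s * x * s⁻¹ ∈ U → ∀ u ∈ U, s * (u * x * u⁻¹) * s⁻¹ ∈ U
  opp : ∃ n ∈ N, ∀ x ∈ U, n * x * n⁻¹ ∈ U → x = 1
  nonempty : S.Nonempty

/-- A split BN-pair of characteristic `p` such that `T = B ∩ N` is abelian, and such that an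
automorphism `f` with `f ^ p = 1` is trivial if it stabilizes all subgroups containing `B` and the
opposite subgroup `n B n⁻¹`, and centralizes `T`. -/
structure RigidBN (p : ℕ) (B N U : Subgroup L) (S : Set L) : Prop extends SB p B N U S where
  comm : ∀ x ∈ B, x ∈ N → ∀ y ∈ B, y ∈ N → x * y = y * x
  rigid : ∀ n ∈ N, (∀ x ∈ U, n * x * n⁻¹ ∈ U → x = 1) → ∀ f : MulAut L, f ^ p = 1 →
    (∀ Q : Subgroup L, B ≤ Q → Q.map f.toMonoidHom = Q) →
    (B.map (MulAut.conj n).toMonoidHom).map f.toMonoidHom = B.map (MulAut.conj n).toMonoidHom →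
    (∀ t ∈ B, t ∈ N → f t = t) → f = 1

/-- A split BN-pair of characteristic `r` whose Coxeter diagram is connected. -/
structure SplitBN (r : ℕ) (B N U : Subgroup L) (S : Set L) : Prop extends SB r B N U S where
  irr : ∀ J ⊆ S, J.Nonempty → (S \ J).Nonempty → (∀ a ∈ J, ∀ b ∈ S \ J, a⁻¹ * b ∉ B) →
    ∃ a ∈ J, ∃ b ∈ S \ J, (b * a)⁻¹ * (a * b) ∉ B

/-- `L` is a simple group with trivial centre having a split BN-pair of characteristic `r` (of rank
at least one, with connected diagram). -/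
def LieType (r : ℕ) (L : Type*) [Group L] : Prop :=
  IsSimpleGroup L ∧ (∀ x : L, (∀ y, x * y = y * x) → x = 1) ∧
    ∃ (B N U : Subgroup L) (S : Set L), SplitBN r B N U S

/-- `L` is a simple group with trivial centre having a rigid split BN-pair of characteristic `p`. -/
def RigidLie (p : ℕ) (L : Type*) [Group L] : Prop :=
  IsSimpleGroup L ∧ (∀ x : L, (∀ y, x * y = y * x) → x = 1) ∧
    ∃ (B N U : Subgroup L) (S : Set L), RigidBN p B N U S

/-- `L` has an `r`-subgroup `U` such that no nontrivial elementary abelian `p`-group of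
automorphisms of `L` is normalized by the inner automorphisms given by `U`. -/
def AutFree (p r : ℕ) (L : Type*) [Group L] : Prop :=
  ∃ U : Subgroup L, IsPGroup r U ∧ ∀ E : Subgroup (MulAut L), ElemAb p E →
    U.map MulAut.conj ≤ normalizer (E : Set (MulAut L)) → False

end

section
variable {G : Type*} [Group G]

/-- `L` is an alternating group of degree at least `5`. -/
def AltCase (L : Subgroup G) : Prop :=
  ∃ n : ℕ, 5 ≤ n ∧ Nonempty (L ≃* alternatingGroup (Fin n))

/-- `L` is of Lie type in characteristic `p` and all outer elements of order `p` generate the same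
subgroup of the outer automorphism group, or the prime `l ≠ p` divides the indices `|L : C_L(x)|` of
their centralizers. -/
def CharCase (p l : ℕ) (L : Subgroup G) : Prop :=
  LieType p L ∧ ((∀ x y : G, Outer p L x → Outer p L y → SameOuter L x y) ∨
    (l ≠ p ∧ ∀ x : G, Outer p L x → l ∣ (L ⊓ centralizer {x}).relIndex L))

/-- `L` is of Lie type in a characteristic `r ≠ p`, and `r` is `l` or the characteristic of `𝕜`, or `L`
has few outer subgroups. -/
def CrossCase (𝕜 : Type*) [Field 𝕜] (p l : ℕ) (L : Subgroup G) : Prop :=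
  ∃ r : ℕ, r.Prime ∧ r ≠ p ∧ LieType r L ∧ (r = l ∨ (r : 𝕜) = 0 ∨ FewOuter p L)

/-- The components treated in the main theorem, for a field `𝕜` and a prime `l`. -/
def Treated (𝕜 : Type*) [Field 𝕜] (p l : ℕ) (L : Subgroup G) : Prop :=
  AltCase L ∨ CharCase p l L ∨ CrossCase 𝕜 p l L ∨
    (FewOuter p L ∧ ((∃ r : ℕ, r.Prime ∧ AutFree p r L) ∨ AlmostSimpleHQ 𝕜 p L)) ∨
    FreeSub p l L ∨ ∃ q : ℕ, q.Prime ∧ q ≠ p ∧ (q : 𝕜) = 0 ∧ FreeSub p q L

end

end Vale.Agent.P240.H195
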